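import Mathlib

/-!
P192: periodic finitely presented groups have finite image in every action by bounded
displacements along the orbits of one bijection.

On `ℤ` an orbit of large span crosses two windows with the same local pattern and the same
connectivity to the left. Folding between them keeps the relators and gives an unbounded orbit,
but a periodic group has bounded orbits in an action that is periodic far to the right.
-/

namespace Vale.Agent.P192

open Equiv

universe u v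

variable {G : Type u} [Group G] {n : ℕ}

lemma mk_cons (s : Fin n × Bool) (w : List (Fin n × Bool)) :
    FreeGroup.mk (s :: w) = FreeGroup.mk [s] * FreeGroup.mk w := by
  rw [FreeGroup.mul_mk]; rfl

lemma mk_flip (i : Fin n) (b : Bool) : FreeGroup.mk [(i, !b)] * FreeGroup.mk [(i, b)] = 1 := by
  rw [show FreeGroup.mk [(i, !b)] = (FreeGroup.mk [(i, b)])⁻¹ by
    simp [FreeGroup.inv_mk, FreeGroup.invRev]]
  exact inv_mul_cancel _

/-- displacement bound for words -/
lemma word_bound (τ : FreeGroup (Fin n) →* Perm ℤ) (D : ℕ)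
    (hD : ∀ s x, |τ (FreeGroup.mk [s]) x - x| ≤ D) :
    ∀ w x, |τ (FreeGroup.mk w) x - x| ≤ (w.length * D : ℕ) := by
  intro w
  induction w with
  | nil => intro x; simp [← FreeGroup.one_eq_mk]
  | cons s w ih =>
    intro x
    rw [mk_cons, map_mul, Perm.mul_apply]
    have h1 := abs_le.1 (ih x)
    have h2 := abs_le.1 (hD s (τ (FreeGroup.mk w) x))
    rw [List.length_cons, abs_le]
    push_cast at h1 ⊢
    constructor <;> nlinarith

/-- An action of a periodic group that is periodic far to the right has orbits bounded above. -/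
lemma periodic_orbit (hG : Group.FG G) (hT : ∀ g : G, IsOfFinOrder g) (ρ : G →* Perm ℤ)
    (hb : ∀ g, ∃ N : ℕ, ∀ x : ℤ, |ρ g x - x| ≤ N) (p : ℕ) [NeZero p]
    (hper : ∀ g, ∃ M : ℤ, ∀ x, M ≤ x → ρ g (x + p) = ρ g x + p) (a : ℤ) :
    ∃ U : ℤ, ∀ g, ρ g a ≤ U := by
  classical
  choose M hM using hper
  have hk : ∀ g (k : ℕ) x, M g ≤ x → ρ g (x + k * p) = ρ g x + k * p := by
    intro g k
    induction k with
    | zero => simp
    | succ k ih =>
      intro x hx
      have := hM g (x + k * p) (by nlinarith)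
      rw [ih x hx] at this
      push_cast
      rw [add_mul, one_mul, ← add_assoc, this, add_assoc]
  obtain ⟨e, he⟩ : ∃ e : G → ZMod p → ℤ, ∀ g c,
      e g c = ρ g (M g + ((c - (M g : ZMod p)).val : ℤ)) - (M g + ((c - (M g : ZMod p)).val : ℤ)) :=
    ⟨_, fun _ _ => rfl⟩
  have spec : ∀ g x, M g ≤ x → ρ g x = x + e g x := by
    intro g x hx
    rw [he]
    obtain ⟨r, hr⟩ : ∃ r : ℤ, r = M g + (((x : ZMod p) - (M g : ZMod p)).val : ℤ) := ⟨_, rfl⟩
    rw [← hr]
    have hv : (((x : ZMod p) - (M g : ZMod p)).val : ℤ) = (x - M g) % p := by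
      rw [← Int.cast_sub, ZMod.val_intCast]
    obtain ⟨k, hk'⟩ : ∃ k : ℕ, (k : ℤ) = (x - M g) / p :=
      ⟨_, Int.toNat_of_nonneg (Int.ediv_nonneg (by omega) (by omega))⟩
    have hx' : x = r + k * p := by
      have := Int.emod_add_mul_ediv (x - M g) p
      rw [hr, hv, hk', mul_comm]; omega
    rw [hx', hk g k r (by omega)]
    ring
  have pick : ∀ (B : ℤ) (c : ZMod p), ∃ x : ℤ, B ≤ x ∧ (x : ZMod p) = c := fun B c =>
    ⟨B + ((c - (B : ZMod p)).val : ℤ), by omega, by simp⟩
  have mul : ∀ g g' c, e (g * g') c = e g' c + e g (c + e g' c) := by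
    intro g g' c
    obtain ⟨N, hN⟩ := hb g'
    obtain ⟨x, hx, rfl⟩ := pick (max (max (M (g * g')) (M g')) (M g + N)) c
    simp only [max_le_iff] at hx
    have e1 := spec (g * g') x (by omega)
    have e2 := spec g' x (by omega)
    have h3 := abs_le.1 (hN x)
    have e3 := spec g (ρ g' x) (by omega)
    rw [map_mul, Perm.mul_apply, e3, e2, Int.cast_add] at e1
    linarith
  have one : ∀ c, e 1 c = 0 := by
    intro c
    obtain ⟨x, hx, rfl⟩ := pick (M 1) c
    have := spec 1 x hx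
    simp at this
    omega
  have inv : ∀ g c, c + (e g c : ZMod p) + (e g⁻¹ (c + (e g c : ZMod p)) : ZMod p) = c := by
    intro g c
    have h0 := congrArg (Int.cast : ℤ → ZMod p) (mul g⁻¹ g c)
    rw [inv_mul_cancel, one] at h0
    push_cast at h0
    linear_combination -h0
  obtain ⟨σ, hσ⟩ : ∃ σ : G →* Perm (ZMod p), ∀ g c, σ g c = c + (e g c : ZMod p) :=
    ⟨MonoidHom.mk' (fun g => ⟨fun c => c + (e g c : ZMod p), fun c => c + (e g⁻¹ c : ZMod p),
      fun c => inv g c, fun c => by simpa using inv g⁻¹ c⟩) (fun g g' => by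
        ext c
        simp only [Equiv.coe_fn_mk, Perm.mul_apply, mul, Int.cast_add]
        ring), fun _ _ => rfl⟩
  have fix : ∀ g ∈ σ.ker, ∀ x, M g ≤ x → ρ g x = x := by
    intro g hg x hx
    have zero_mod : ∀ c, (e g c : ZMod p) = 0 := fun c => by
      have := hσ g c
      rw [MonoidHom.mem_ker.1 hg, Perm.one_apply] at this
      simpa using this
    have pw : ∀ (k : ℕ) c, e (g ^ k) c = k * e g c := by
      intro k
      induction k with
      | zero => intro c; simp [one]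
      | succ k ih =>
        intro c
        rw [pow_succ, mul, zero_mod, add_zero, ih]
        push_cast; ring
    obtain ⟨k, hk0, hk1⟩ := (isOfFinOrder_iff_pow_eq_one.1 (hT g))
    have := pw k x
    rw [hk1, one, zero_eq_mul] at this
    rcases this with h | h
    · omega
    · rw [spec g x hx, h, add_zero]
  haveI := hG
  haveI : σ.ker.FiniteIndex := Subgroup.finiteIndex_ker σ
  haveI : Group.FG σ.ker := inferInstance
  obtain ⟨T, hT'⟩ := (Group.fg_def.1 ‹Group.FG σ.ker›)
  obtain ⟨M0, hM0⟩ : ∃ M0 : ℤ, M0 = a + ∑ t ∈ T, ((M t.1).natAbs : ℤ) + a.natAbs := ⟨_, rfl⟩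
  have hfixK : ∀ t : σ.ker, ∀ x, M0 ≤ x → ρ t.1 x = x := by
    intro t
    have ht : t ∈ Subgroup.closure (T : Set σ.ker) := hT' ▸ Subgroup.mem_top t
    induction ht using Subgroup.closure_induction with
    | mem t ht =>
      intro x hx
      refine fix t.1 t.2 x ?_
      have := Finset.single_le_sum (f := fun t : σ.ker => ((M t.1).natAbs : ℤ))
        (fun _ _ => by positivity) (Finset.mem_coe.1 ht)
      omega
    | one => intro x _; simp
    | mul u v _ _ hu hv =>
      intro x hx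
      rw [Subgroup.coe_mul, map_mul, Perm.mul_apply, hv x hx, hu x hx]
    | inv u _ hu =>
      intro x hx
      rw [InvMemClass.coe_inv, map_inv, Perm.inv_eq_iff_eq, hu x hx]
  have hKa : ∀ t : σ.ker, ρ t.1 a ≤ M0 := by
    intro t
    by_contra hlt
    have h1 := hfixK t⁻¹ (ρ t.1 a) (by omega)
    rw [← Perm.mul_apply, ← map_mul, ← Subgroup.coe_mul, inv_mul_cancel, Subgroup.coe_one, map_one,
      Perm.one_apply] at h1
    have hn : (0 : ℤ) ≤ ∑ t ∈ T, ((M t.1).natAbs : ℤ) := Finset.sum_nonneg fun _ _ => by positivity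
    omega
  haveI : Finite (G ⧸ σ.ker) := inferInstance
  haveI := Fintype.ofFinite (G ⧸ σ.ker)
  choose N hN using hb
  refine ⟨M0 + (Finset.univ.sup fun q : G ⧸ σ.ker => N q.out : ℕ), fun g => ?_⟩
  obtain ⟨t, ht⟩ : ∃ t : σ.ker, g = (QuotientGroup.mk g : G ⧸ σ.ker).out * t.1 :=
    ⟨⟨(QuotientGroup.mk g : G ⧸ σ.ker).out⁻¹ * g, QuotientGroup.eq.1 (QuotientGroup.out_eq' _)⟩,
      by simp⟩
  have h1 := hKa t
  have h2 := abs_le.1 (hN (QuotientGroup.mk g : G ⧸ σ.ker).out (ρ t.1 a))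
  have h3 : N (QuotientGroup.mk g : G ⧸ σ.ker).out
      ≤ Finset.univ.sup fun q : G ⧸ σ.ker => N q.out :=
    Finset.le_sup (f := fun q : G ⧸ σ.ker => N q.out) (Finset.mem_univ _)
  rw [ht, map_mul, Perm.mul_apply]
  omega

/-- The span of an orbit is bounded by a number that depends only on the presentation and on the
bound for the generators. -/
lemma span_bound (hT : ∀ g : G, IsOfFinOrder g) (φ : FreeGroup (Fin n) →* G)
    (hφ : Function.Surjective φ) (S : Set (FreeGroup (Fin n))) (L : ℕ)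
    (hL : ∀ r ∈ S, r.toWord.length ≤ L) (hker : Subgroup.normalClosure S = φ.ker) (D : ℕ) :
    ∃ W : ℕ, ∀ ρ : G →* Perm ℤ, (∀ s x, |ρ (φ (FreeGroup.mk [s])) x - x| ≤ D) →
      ∀ g a, ρ g a ≤ a + W := by
  classical
  have hG : Group.FG G := Group.fg_of_surjective hφ
  obtain ⟨R, hR⟩ : ∃ R, R = (L + 1) * D := ⟨_, rfl⟩
  have hDR : D ≤ R := hR ▸ Nat.le_mul_of_pos_left D (by omega)
  haveI : Finite (Set.Icc (-(D : ℤ)) D) := (Set.finite_Icc _ _).to_subtype
  obtain ⟨J, hJ⟩ : ∃ J, J = Nat.card ((((Fin n × Bool) × Fin (2 * R + 1) → Set.Icc (-(D : ℤ)) D)) ×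
      (Fin (D + 1) → Fin (D + 1) → Prop) × (Fin (D + 1) → Prop)) := ⟨_, rfl⟩
  refine ⟨(2 * R + 1) * (J + 2), fun ρ hD g a => ?_⟩
  by_contra hfar
  rw [not_le] at hfar
  push_cast at hfar
  obtain ⟨τ, hτ⟩ : ∃ τ : FreeGroup (Fin n) →* Perm ℤ, τ = ρ.comp φ := ⟨_, rfl⟩
  have hD' : ∀ s x, |τ (FreeGroup.mk [s]) x - x| ≤ (D : ℤ) := fun s x => by
    simpa [hτ] using hD s x
  obtain ⟨d, hd⟩ : ∃ d : Fin n × Bool → ℤ → ℤ, ∀ s x, d s x = τ (FreeGroup.mk [s]) x - x :=
    ⟨_, fun _ _ => rfl⟩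
  have dD : ∀ s x, -(D : ℤ) ≤ d s x ∧ d s x ≤ D := fun s x => by
    rw [hd]; exact abs_le.1 (hD' s x)
  obtain ⟨Rc, hRc⟩ : ∃ Rc : ℤ → ℤ → ℤ → Prop, ∀ c x y, Rc c x y ↔
      Relation.ReflTransGen (fun x y => x < c ∧ y < c ∧ ∃ s, x + d s x = y) x y :=
    ⟨_, fun _ _ _ => Iff.rfl⟩
  obtain ⟨c, hc⟩ : ∃ c : ℕ → ℤ, ∀ k, c k = a + R + 1 + (2 * R + 1) * k := ⟨_, fun _ => rfl⟩
  obtain ⟨st, hst⟩ : ∃ st : Fin (J + 1) →
      (((Fin n × Bool) × Fin (2 * R + 1) → Set.Icc (-(D : ℤ)) D)) ×
      (Fin (D + 1) → Fin (D + 1) → Prop) × (Fin (D + 1) → Prop), ∀ k,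
      (∀ sj, ((st k).1 sj : ℤ) = d sj.1 (c k + (sj.2 : ℕ) - R)) ∧
      (∀ t t', (st k).2.1 t t' ↔ Rc (c k + D + 1) (c k + (t : ℕ)) (c k + (t' : ℕ))) ∧
      ∀ t, (st k).2.2 t ↔ Rc (c k + D + 1) a (c k + (t : ℕ)) :=
    ⟨fun k => (fun sj => ⟨d sj.1 (c k + (sj.2 : ℕ) - R), dD _ _⟩,
      fun t t' => Rc (c k + D + 1) (c k + (t : ℕ)) (c k + (t' : ℕ)),
      fun t => Rc (c k + D + 1) a (c k + (t : ℕ))),
      fun k => ⟨fun _ => rfl, fun _ _ => Iff.rfl, fun _ => Iff.rfl⟩⟩
  haveI := Fintype.ofFinite ((((Fin n × Bool) × Fin (2 * R + 1) → Set.Icc (-(D : ℤ)) D)) ×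
      (Fin (D + 1) → Fin (D + 1) → Prop) × (Fin (D + 1) → Prop))
  obtain ⟨i1, i2, hne, heq⟩ := Fintype.exists_ne_map_eq_of_card_lt st (by
    rw [Fintype.card_fin, hJ, Nat.card_eq_fintype_card]; omega)
  wlog hlt : i1 < i2 generalizing i1 i2
  · exact this i2 i1 hne.symm heq.symm (lt_of_le_of_ne (not_lt.1 hlt) hne.symm)
  obtain ⟨k1, hk1⟩ : ∃ k1 : ℕ, k1 = i1 := ⟨_, rfl⟩
  obtain ⟨k2, hk2⟩ : ∃ k2 : ℕ, k2 = i2 := ⟨_, rfl⟩
  have hk12 : k1 < k2 := hk1 ▸ hk2 ▸ hlt
  have hk2J : k2 ≤ J := by omega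
  obtain ⟨m, hm⟩ : ∃ m, m = c k1 := ⟨_, rfl⟩
  obtain ⟨p, hp⟩ : ∃ p, p = (2 * R + 1) * (k2 - k1) := ⟨_, rfl⟩
  have hpR : R < p := by
    have : (2 * R + 1) * 1 ≤ p := hp ▸ Nat.mul_le_mul_left _ (by omega)
    omega
  haveI : NeZero p := ⟨by omega⟩
  have hm2 : c k2 = m + p := by
    rw [hm, hp, hc, hc]
    push_cast [Nat.cast_sub hk12.le]
    ring
  have ham : a + R + 1 ≤ m := by
    rw [hm, hc]
    have : (0 : ℤ) ≤ (2 * R + 1) * k1 := by positivity
    omega
  have same : ∀ s (j : ℤ), |j| ≤ R → d s (m + j) = d s (m + p + j) := by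
    intro s j hj
    rw [abs_le] at hj
    have h1 := congrArg (fun q => (q.1 (s, (⟨(j + R).toNat, by omega⟩ : Fin (2 * R + 1))) : ℤ)) heq
    simp only [(hst _).1, ← hk1, ← hk2, hm2, ← hm,
      Int.toNat_of_nonneg (show (0 : ℤ) ≤ j + R by omega)] at h1
    rw [show m + (j + R) - R = m + j by ring, show m + (p : ℤ) + (j + R) - R = m + p + j by ring]
      at h1
    exact h1
  obtain ⟨fd, hfd⟩ : ∃ fd : ℤ → ℤ, ∀ x, fd x = if x < m then x else m + (x - m) % p :=
    ⟨_, fun _ => rfl⟩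
  have mv : ∀ s x (j : ℤ), |j| ≤ R → d s (fd (x + j)) = d s (fd x + j) := by
    intro s x j hj
    have hj' := abs_le.1 hj
    rw [hfd, hfd]
    by_cases hx : x < m
    · by_cases hy : x + j < m
      · simp [hx, hy]
      · rw [if_neg hy, if_pos hx, Int.emod_eq_of_lt (by omega) (by omega)]
        ring_nf
    · rw [if_neg hx]
      obtain ⟨r, hr⟩ : ∃ r, r = (x - m) % p := ⟨_, rfl⟩
      have hr0 : 0 ≤ r := hr ▸ Int.emod_nonneg _ (by omega)
      have hrp : r < p := hr ▸ Int.emod_lt_of_pos _ (by omega)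
      obtain ⟨q, hq⟩ : ∃ q, q = (x - m) / p := ⟨_, rfl⟩
      have hxq : x = m + r + p * q := by
        have := Int.emod_add_mul_ediv (x - m) p
        rw [← hr, ← hq] at this; omega
      rw [← hr]
      have hq0 : 0 ≤ q := hq ▸ Int.ediv_nonneg (by omega) (by omega)
      by_cases hy : x + j < m
      · rw [if_pos hy]
        have : q = 0 := by nlinarith
        rw [hxq, this]; ring_nf
      · rw [if_neg hy, show x + j - m = r + j + p * q by omega, Int.add_mul_emod_self_left]
        rcases lt_or_ge (r + j) 0 with h1 | h1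
        · rw [← Int.add_emod_right, Int.emod_eq_of_lt (by omega) (by omega),
            show m + (r + j + (p : ℤ)) = m + p + (r + j) by ring,
            ← same s (r + j) (abs_le.2 (by omega))]
          ring_nf
        · rcases lt_or_ge (r + j) p with h2 | h2
          · rw [Int.emod_eq_of_lt h1 h2]; ring_nf
          · rw [← Int.sub_emod_right, Int.emod_eq_of_lt (by omega) (by omega),
              same s (r + j - p) (abs_le.2 (by omega))]
            ring_nf
  -- the folded action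
  have dR : ∀ s x, |d s x| ≤ (R : ℤ) := fun s x => abs_le.2 (by have := dD s x; omega)
  have cancel : ∀ i b x, x + d (i, b) (fd x) + d (i, !b) (fd (x + d (i, b) (fd x))) = x := by
    intro i b x
    rw [mv _ _ _ (dR _ _), hd (i, !b), hd (i, b)]
    have := congrArg (fun w => τ w (fd x)) (mk_flip i b)
    simp only [map_mul, Perm.mul_apply, map_one, Perm.one_apply] at this
    rw [show fd x + (τ (FreeGroup.mk [(i, b)]) (fd x) - fd x)
      = τ (FreeGroup.mk [(i, b)]) (fd x) by ring, this]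
    ring
  obtain ⟨f, hf⟩ : ∃ f : Fin n → Perm ℤ, ∀ i, (∀ x, f i x = x + d (i, true) (fd x)) ∧
      ∀ x, (f i).symm x = x + d (i, false) (fd x) :=
    ⟨fun i => ⟨fun x => x + d (i, true) (fd x), fun x => x + d (i, false) (fd x),
      fun x => by simpa using cancel i true x, fun x => by simpa using cancel i false x⟩,
      fun i => ⟨fun _ => rfl, fun _ => rfl⟩⟩
  obtain ⟨T, hTdef⟩ : ∃ T : FreeGroup (Fin n) →* Perm ℤ, T = FreeGroup.lift f := ⟨_, rfl⟩
  have hT1 : ∀ s x, T (FreeGroup.mk [s]) x = x + d s (fd x) := by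
    rintro ⟨i, b⟩ x
    cases b <;> simp [hTdef, FreeGroup.lift_mk, hf, Perm.inv_def]
  have hTD : ∀ s x, |T (FreeGroup.mk [s]) x - x| ≤ (D : ℤ) := fun s x => by
    rw [hT1, add_sub_cancel_left, hd]; exact hD' s _
  have track : ∀ w : List (Fin n × Bool), w.length ≤ L → ∀ x,
      T (FreeGroup.mk w) x - x = τ (FreeGroup.mk w) (fd x) - fd x := by
    intro w
    induction w with
    | nil => intro _ x; simp [← FreeGroup.one_eq_mk]
    | cons s w ih =>
      intro hw x
      simp only [List.length_cons] at hw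
      obtain ⟨j, hj⟩ : ∃ j, j = T (FreeGroup.mk w) x - x := ⟨_, rfl⟩
      have hjR : |j| ≤ R := hj ▸ le_trans (word_bound T D hTD w x)
        (Int.ofNat_le.2 (hR ▸ Nat.mul_le_mul_right D (by omega)))
      have ihx := ih (by omega) x
      rw [mk_cons, map_mul, map_mul, Perm.mul_apply, Perm.mul_apply, hT1,
        show T (FreeGroup.mk w) x = x + j by omega, mv s x j hjR, hd,
        show fd x + j = τ (FreeGroup.mk w) (fd x) by omega]
      omega
  have hk : φ.ker ≤ T.ker := by
    rw [← hker]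
    refine Subgroup.normalClosure_le_normal fun r hr => MonoidHom.mem_ker.2 (Equiv.ext fun x => ?_)
    have := track r.toWord (hL r hr) x
    rw [FreeGroup.mk_toWord] at this
    have hr1 : φ r = 1 := MonoidHom.mem_ker.1 (hker ▸ Subgroup.subset_normalClosure hr)
    have h1 : τ r (fd x) = fd x := by simp [hτ, hr1]
    rw [h1] at this
    simp only [Perm.one_apply]
    omega
  obtain ⟨ρ', hρ'⟩ : ∃ ρ' : G →* Perm ℤ, ∀ w, ρ' (φ w) = T w :=
    ⟨φ.liftOfSurjective hφ ⟨T, hk⟩, fun w => by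
      simp [MonoidHom.liftOfRightInverse_comp_apply]⟩
  have lift_word : ∀ g, ∃ w, φ (FreeGroup.mk w) = g := fun g => by
    obtain ⟨v, rfl⟩ := hφ g
    exact ⟨v.toWord, by rw [FreeGroup.mk_toWord]⟩
  obtain ⟨U, hU⟩ := periodic_orbit hG hT ρ' (fun g => by
    obtain ⟨w, rfl⟩ := lift_word g
    exact ⟨w.length * D, fun x => by rw [hρ']; exact word_bound T D hTD w x⟩) p (fun g => by
    obtain ⟨w, rfl⟩ := lift_word g
    refine ⟨m + (w.length * D : ℕ), ?_⟩
    rw [hρ']
    clear hρ'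
    induction w with
    | nil => intro x _; simp [← FreeGroup.one_eq_mk]
    | cons s w ih =>
      intro x hx
      simp only [List.length_cons] at hx
      push_cast at hx
      have hxw : m + ((w.length * D : ℕ) : ℤ) ≤ x := by push_cast; nlinarith
      have hb2 := abs_le.1 (word_bound T D hTD w x)
      push_cast at hb2
      rw [mk_cons, map_mul, Perm.mul_apply, Perm.mul_apply, ih x hxw, hT1, hT1]
      obtain ⟨y, hy⟩ : ∃ y, y = T (FreeGroup.mk w) x := ⟨_, rfl⟩
      rw [← hy] at hb2 ⊢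
      have hym : m ≤ y := by nlinarith
      rw [hfd, hfd, if_neg (by omega), if_neg (by omega),
        show y + (p : ℤ) - m = y - m + p by ring, Int.add_emod_right]
      ring) a
  -- orbits of the folded action
  obtain ⟨Ob, hOb⟩ : ∃ Ob : ℤ → ℤ → Prop, ∀ x y, Ob x y ↔ ∃ g, ρ' g x = y :=
    ⟨_, fun _ _ => Iff.rfl⟩
  have refl : ∀ x, Ob x x := fun x => (hOb _ _).2 ⟨1, by simp⟩
  have trans : ∀ {x y z}, Ob x y → Ob y z → Ob x z := fun hxy hyz => by
    obtain ⟨g, hg⟩ := (hOb _ _).1 hxy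
    obtain ⟨g', hg'⟩ := (hOb _ _).1 hyz
    exact (hOb _ _).2 ⟨g' * g, by rw [map_mul, Perm.mul_apply, hg, hg']⟩
  have symm : ∀ {x y}, Ob x y → Ob y x := fun hxy => by
    obtain ⟨g, hg⟩ := (hOb _ _).1 hxy
    exact (hOb _ _).2 ⟨g⁻¹, by rw [← hg, ← Perm.mul_apply, ← map_mul]; simp⟩
  have agree : ∀ s z, z < m + p + D + 1 → d s (fd z) = d s z := by
    intro s z hz
    rw [hfd]
    by_cases h1 : z < m
    · rw [if_pos h1]
    · rw [if_neg h1]
      rcases lt_or_ge (z - m) p with h2 | h2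
      · rw [Int.emod_eq_of_lt (by omega) h2]; ring_nf
      · rw [← Int.sub_emod_right, Int.emod_eq_of_lt (by omega) (by omega),
          same s (z - m - p) (abs_le.2 (by omega))]
        ring_nf
  have move : ∀ s z, Ob z (z + d s (fd z)) := fun s z =>
    (hOb _ _).2 ⟨φ (FreeGroup.mk [s]), by rw [hρ', hT1]⟩
  have shiftmove : ∀ (k : ℕ) s z, m ≤ z → z < m + p + D + 1 →
      Ob (z + k * p) (z + d s z + k * p) := by
    intro k s z h1 h2
    have h3 : fd (z + k * p) = fd z := by
      have h0 : (0 : ℤ) ≤ (k : ℤ) * p := by positivity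
      rw [hfd, hfd, if_neg (by omega), if_neg (by omega),
        show z + (k : ℤ) * p - m = z - m + p * k by ring, Int.add_mul_emod_self_left]
    have := move s (z + k * p)
    rw [h3, agree s z h2] at this
    rwa [show z + d s z + k * p = z + k * p + d s z by ring]
  have hS1 : ∀ t, Rc (m + p + D + 1) a (m + p + (t : Fin (D + 1)).1) ↔
      Rc (m + D + 1) a (m + (t : Fin (D + 1)).1) := fun t => by
    have := congrFun (congrArg (fun q => q.2.2) heq) t
    rw [← hm2, hm, hk1, hk2, ← (hst i2).2.2, ← (hst i1).2.2, this]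
  have hP1 : ∀ t t', Rc (m + p + D + 1) (m + p + (t : Fin (D + 1)).1) (m + p + (t' : Fin (D + 1)).1)
      ↔ Rc (m + D + 1) (m + (t : Fin (D + 1)).1) (m + (t' : Fin (D + 1)).1) := fun t t' => by
    have := congrFun (congrFun (congrArg (fun q => q.2.1) heq) t) t'
    rw [← hm2, hm, hk1, hk2, ← (hst i2).2.1, ← (hst i1).2.1, this]
  have base : ∀ u z, Rc (m + D + 1) u z → Ob u z := by
    intro u z h
    rw [hRc] at h
    induction h with
    | refl => exact refl u
    | @tail y z _ hyz ih =>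
      obtain ⟨hy, -, s, rfl⟩ := hyz
      refine trans ih ?_
      have := move s y
      rwa [agree s y (by omega)] at this
  have main : ∀ k : ℕ,
      (∀ t t' : Fin (D + 1), Rc (m + D + 1) (m + (t : ℕ)) (m + (t' : ℕ)) →
        Ob (m + (t : ℕ) + k * p) (m + (t' : ℕ) + k * p)) ∧
      ∀ t : Fin (D + 1), Rc (m + D + 1) a (m + (t : ℕ)) → Ob a (m + (t : ℕ) + k * p) := by
    intro k
    induction k with
    | zero => exact ⟨fun t t' h => by simpa using base _ _ h, fun t h => by simpa using base _ _ h⟩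
    | succ k ih =>
      have step : ∀ u u' : ℤ, (m ≤ u → u' = u + k * p) → (u < m → u = a ∧ u' = a) →
          ∀ z, Rc (m + p + D + 1) u z →
            (m ≤ z → Ob u' (z + k * p)) ∧ (z < m →
              (∃ t : Fin (D + 1), Ob u' (m + (t : ℕ) + k * p) ∧ Rc (m + D + 1) (m + (t : ℕ)) z) ∨
              (u' = a ∧ Rc (m + D + 1) a z)) := by
        intro u u' h1 h2 z hz
        rw [hRc] at hz
        induction hz with
        | refl =>
          refine ⟨fun h => h1 h ▸ refl _, fun h => Or.inr ⟨(h2 h).2, ?_⟩⟩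
          rw [hRc, ← (h2 h).1]
        | @tail y z _ hyz ihy =>
          obtain ⟨hy, hz', s, rfl⟩ := hyz
          have hds := dD s y
          rcases lt_or_ge y m with hym | hym
          · have ext : ∀ x, Rc (m + D + 1) x y → Rc (m + D + 1) x (y + d s y) := fun x hx => by
              rw [hRc] at hx ⊢
              exact hx.tail ⟨by omega, by omega, s, rfl⟩
            rcases ihy.2 hym with ⟨t, ht, hr⟩ | ⟨hu, hr⟩
            · refine ⟨fun h => ?_, fun _ => Or.inl ⟨t, ht, ext _ hr⟩⟩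
              have := ih.1 t ⟨(y + d s y - m).toNat, by omega⟩
              simp only [Int.toNat_of_nonneg (show (0 : ℤ) ≤ y + d s y - m by omega),
                add_sub_cancel] at this
              exact trans ht (this (ext _ hr))
            · refine ⟨fun h => ?_, fun _ => Or.inr ⟨hu, ext _ hr⟩⟩
              have := ih.2 ⟨(y + d s y - m).toNat, by omega⟩
              simp only [Int.toNat_of_nonneg (show (0 : ℤ) ≤ y + d s y - m by omega),
                add_sub_cancel] at this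
              exact hu ▸ this (ext _ hr)
          · refine ⟨fun _ => trans (ihy.1 hym) (shiftmove k s y hym (by omega)), fun h => ?_⟩
            refine Or.inl ⟨⟨(y - m).toNat, by omega⟩, ?_, ?_⟩
            · simp only [Int.toNat_of_nonneg (show (0 : ℤ) ≤ y - m by omega), add_sub_cancel]
              exact ihy.1 hym
            · simp only [Int.toNat_of_nonneg (show (0 : ℤ) ≤ y - m by omega), add_sub_cancel]
              rw [hRc]
              exact Relation.ReflTransGen.single ⟨by omega, by omega, s, rfl⟩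
      have e : ∀ x : ℤ, m + p + x + k * p = m + x + ((k + 1 : ℕ) : ℤ) * p := fun x => by
        push_cast; ring
      refine ⟨fun t t' h => ?_, fun t h => ?_⟩
      · have := (step (m + p + (t : ℕ)) (m + p + (t : ℕ) + k * p) (fun _ => rfl)
          (fun h => absurd h (by omega)) _ ((hP1 t t').2 h)).1 (by omega)
        rwa [e, e] at this
      · have := (step a a (fun h => absurd h (by omega)) (fun _ => ⟨rfl, rfl⟩) _
          ((hS1 t).2 h)).1 (by omega)
        rwa [e] at this
  -- the orbit of `a` crosses the window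
  obtain ⟨w, hw⟩ := lift_word g
  have cross : ∀ w, (τ (FreeGroup.mk w) a < m ∧ Rc (m + D + 1) a (τ (FreeGroup.mk w) a)) ∨
      ∃ t : Fin (D + 1), Rc (m + D + 1) a (m + (t : ℕ)) := by
    intro w
    induction w with
    | nil => left; simp [← FreeGroup.one_eq_mk, hRc, Relation.ReflTransGen.refl]; omega
    | cons s w ih =>
      rcases ih with ⟨h1, h2⟩ | h
      · obtain ⟨y, hy⟩ : ∃ y, y = τ (FreeGroup.mk w) a := ⟨_, rfl⟩
        rw [← hy] at h1 h2
        have e : τ (FreeGroup.mk (s :: w)) a = y + d s y := by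
          rw [mk_cons, map_mul, Perm.mul_apply, ← hy, hd]; ring
        have hds := dD s y
        have h3 : Rc (m + D + 1) a (y + d s y) := by
          rw [hRc] at h2 ⊢
          exact h2.tail ⟨by omega, by omega, s, rfl⟩
        rcases lt_or_ge (y + d s y) m with h4 | h4
        · exact Or.inl ⟨e ▸ h4, e ▸ h3⟩
        · refine Or.inr ⟨⟨(y + d s y - m).toNat, by omega⟩, ?_⟩
          simpa [Int.toNat_of_nonneg (show (0 : ℤ) ≤ y + d s y - m by omega)] using h3
      · exact Or.inr h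
  have hgm : m ≤ τ (FreeGroup.mk w) a := by
    have : (c k1 : ℤ) ≤ a + (2 * R + 1) * (J + 2) := by
      rw [hc]
      have : ((2 * R + 1 : ℤ)) * k1 ≤ (2 * R + 1) * J :=
        mul_le_mul_of_nonneg_left (Int.ofNat_le.2 (by omega)) (by positivity)
      nlinarith
    simp only [hτ, MonoidHom.comp_apply, hw]
    omega
  obtain ⟨t, ht⟩ := (cross w).resolve_left fun h => absurd h.1 (not_lt.2 hgm)
  obtain ⟨g', hg'⟩ := (hOb _ _).1 ((main ((U - m).toNat + 1)).2 t ht)
  have := hU g'
  rw [hg'] at this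
  have hp1 : (1 : ℤ) ≤ p := by omega
  have h5 : ((((U - m).toNat + 1 : ℕ)) : ℤ) ≤ (((U - m).toNat + 1 : ℕ) : ℤ) * p :=
    le_mul_of_one_le_right (by positivity) hp1
  omega

/-- A periodic finitely presented group has finite image. -/
theorem image_finite (hfp : Group.IsFinitelyPresented G) (hT : ∀ g : G, IsOfFinOrder g)
    {X : Type v} (ψ : Perm X) (ρ : G →* Perm X)
    (hρ : ∀ g, ∃ N : ℕ, ∀ x, ∃ k : ℤ, |k| ≤ N ∧ ρ g x = (ψ ^ k) x) :
    (Set.range ρ).Finite := by
  classical
  obtain ⟨n, φ, hφ, S, hS, hker⟩ := hfp.out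
  choose Nb hNb using fun s : Fin n × Bool => hρ (φ (FreeGroup.mk [s]))
  obtain ⟨D, hDdef⟩ : ∃ D, D = Finset.univ.sup Nb := ⟨_, rfl⟩
  have hNbD : ∀ s, Nb s ≤ D := fun s => hDdef ▸ Finset.le_sup (Finset.mem_univ s)
  choose dl hdl hdl' using hNb
  have hdlD : ∀ s x, |dl s x| ≤ (D : ℤ) := fun s x => (hdl s x).trans (Int.ofNat_le.2 (hNbD s))
  obtain ⟨L, hLdef⟩ : ∃ L, L = hS.toFinset.sup (fun r => r.toWord.length) := ⟨_, rfl⟩
  have hL : ∀ r ∈ S, r.toWord.length ≤ L := fun r hr =>
    hLdef ▸ Finset.le_sup (f := fun r : FreeGroup (Fin n) => r.toWord.length) (hS.mem_toFinset.2 hr)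
  obtain ⟨W, hW⟩ := span_bound hT φ hφ S L hL hker D
  obtain ⟨B, hB⟩ : ∃ B, B = (L + 2) * D + 1 := ⟨_, rfl⟩
  -- every orbit is short
  have short : ∀ x g, ∃ k : ℤ, |k| ≤ (max B W : ℕ) ∧ ρ g x = (ψ ^ k) x := by
    intro x g
    by_cases hq : ∃ q : ℕ, 0 < q ∧ q ≤ B ∧ (ψ ^ (q : ℤ)) x = x
    · obtain ⟨q, hq0, hqB, hqx⟩ := hq
      obtain ⟨N, hN⟩ := hρ g
      obtain ⟨k, -, hk⟩ := hN x
      refine ⟨k % q, abs_le.2 ?_, ?_⟩
      · have := Int.emod_nonneg k (show (q : ℤ) ≠ 0 by omega)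
        have := Int.emod_lt_of_pos k (show (0 : ℤ) < q by omega)
        omega
      · rw [hk]
        conv_lhs => rw [← Int.emod_add_mul_ediv k q, zpow_add, Perm.mul_apply, zpow_mul,
          Perm.zpow_apply_eq_self_of_apply_eq_self hqx]
    · have free : ∀ j : ℤ, |j| ≤ B → ∀ k : ℤ, (ψ ^ (j + k)) x = (ψ ^ k) x → j = 0 := by
        intro j hj k h
        have hx : (ψ ^ j) x = x := (ψ ^ k).injective (by
          rw [← Perm.mul_apply, ← zpow_add, add_comm k j, h])
        by_contra hj0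
        refine hq ⟨j.natAbs, by omega, by rw [abs_le] at hj; omega, ?_⟩
        rcases Int.natAbs_eq j with e | e
        · rw [← e]; exact hx
        · rw [show (j.natAbs : ℤ) = -j by omega, zpow_neg, Perm.inv_eq_iff_eq, hx]
      obtain ⟨d, hd⟩ : ∃ d : Fin n × Bool → ℤ → ℤ, ∀ s k, d s k = dl s ((ψ ^ k) x) :=
        ⟨_, fun _ _ => rfl⟩
      have hd' : ∀ s k, (ψ ^ (k + d s k)) x = ρ (φ (FreeGroup.mk [s])) ((ψ ^ k) x) := fun s k => by
        rw [hdl', ← hd, add_comm, zpow_add, Perm.mul_apply]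
      have cancel : ∀ i b k, k + d (i, b) k + d (i, !b) (k + d (i, b) k) = k := by
        intro i b k
        have h1 := hd' (i, !b) (k + d (i, b) k)
        rw [hd' (i, b) k, ← Perm.mul_apply, ← map_mul, ← map_mul, mk_flip, map_one, map_one,
          Perm.one_apply] at h1
        have := free (d (i, b) k + d (i, !b) (k + d (i, b) k)) ((abs_add_le _ _).trans (by
          have h2 := hdlD (i, b) ((ψ ^ k) x)
          have h3 := hdlD (i, !b) ((ψ ^ (k + d (i, b) k)) x)
          rw [← hd] at h2 h3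
          have : 2 * D ≤ (L + 2) * D := Nat.mul_le_mul_right D (by omega)
          omega)) k (by rw [← h1]; congr 2; ring)
        omega
      obtain ⟨f, hf⟩ : ∃ f : Fin n → Perm ℤ, ∀ i, (∀ k, f i k = k + d (i, true) k) ∧
          ∀ k, (f i).symm k = k + d (i, false) k :=
        ⟨fun i => ⟨fun k => k + d (i, true) k, fun k => k + d (i, false) k,
          fun k => by simpa using cancel i true k, fun k => by simpa using cancel i false k⟩,
          fun i => ⟨fun _ => rfl, fun _ => rfl⟩⟩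
      obtain ⟨T, hTdef⟩ : ∃ T : FreeGroup (Fin n) →* Perm ℤ, T = FreeGroup.lift f := ⟨_, rfl⟩
      have hT1 : ∀ s k, T (FreeGroup.mk [s]) k = k + d s k := by
        rintro ⟨i, b⟩ k
        cases b <;> simp [hTdef, FreeGroup.lift_mk, hf, Perm.inv_def]
      have hTD : ∀ s k, |T (FreeGroup.mk [s]) k - k| ≤ (D : ℤ) := fun s k => by
        rw [hT1, add_sub_cancel_left, hd]; exact hdlD s _
      have eqv : ∀ w k, (ψ ^ (T (FreeGroup.mk w) k)) x = ρ (φ (FreeGroup.mk w)) ((ψ ^ k) x) := by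
        intro w
        induction w with
        | nil => intro k; simp [← FreeGroup.one_eq_mk]
        | cons s w ih =>
          intro k
          rw [mk_cons, map_mul, map_mul, map_mul, Perm.mul_apply, Perm.mul_apply, hT1, hd', ih]
      have hk : φ.ker ≤ T.ker := by
        rw [← hker]
        refine Subgroup.normalClosure_le_normal fun r hr =>
          MonoidHom.mem_ker.2 (Equiv.ext fun k => ?_)
        have h1 := eqv r.toWord k
        have h2 := word_bound T D hTD r.toWord k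
        rw [FreeGroup.mk_toWord] at h1 h2
        have hr1 : φ r = 1 := MonoidHom.mem_ker.1 (hker ▸ Subgroup.subset_normalClosure hr)
        rw [hr1, map_one, Perm.one_apply] at h1
        have := free (T r k - k) (h2.trans (Int.ofNat_le.2 (by
          have : r.toWord.length * D ≤ (L + 2) * D :=
            Nat.mul_le_mul_right D (by have := hL r hr; omega)
          omega))) k (by rwa [sub_add_cancel])
        rw [Perm.one_apply]
        omega
      obtain ⟨ρ', hρ'⟩ : ∃ ρ' : G →* Perm ℤ, ∀ w, ρ' (φ w) = T w :=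
        ⟨φ.liftOfSurjective hφ ⟨T, hk⟩, fun w => by
          simp [MonoidHom.liftOfRightInverse_comp_apply]⟩
      have hg1 := hW ρ' (fun s k => by rw [hρ']; exact hTD s k) g 0
      have hg2 := hW ρ' (fun s k => by rw [hρ']; exact hTD s k) g⁻¹ (ρ' g 0)
      rw [← Perm.mul_apply, ← map_mul, inv_mul_cancel, map_one, Perm.one_apply] at hg2
      refine ⟨ρ' g 0, abs_le.2 (by omega), ?_⟩
      obtain ⟨v, rfl⟩ := hφ g
      have := eqv v.toWord 0
      rw [FreeGroup.mk_toWord, zpow_zero, Perm.one_apply, ← hρ'] at this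
      exact this.symm
  -- so the action factors through a finite group
  obtain ⟨V, hV⟩ : ∃ V, V = max B W := ⟨_, rfl⟩
  haveI : Finite (G →* Perm (Fin (2 * V + 1))) :=
    Finite.of_injective (fun f i => f (φ (FreeGroup.of i))) fun f f' h => by
      refine MonoidHom.ext fun g => ?_
      obtain ⟨v, rfl⟩ := hφ g
      exact DFunLike.congr_fun (FreeGroup.ext_hom (f.comp φ) (f'.comp φ) (congrFun h)) v
  obtain ⟨Φ, hΦ⟩ : ∃ Φ : G → ((G →* Perm (Fin (2 * V + 1))) → Perm (Fin (2 * V + 1))),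
      ∀ g f, Φ g f = f g := ⟨_, fun _ _ => rfl⟩
  have key : ∀ g g', Φ g = Φ g' → ρ g = ρ g' := by
    intro g g' h
    refine Equiv.ext fun x => ?_
    obtain ⟨O, hO⟩ : ∃ O : Set X, ∀ y, y ∈ O ↔ ∃ g, ρ g x = y :=
      ⟨{y | ∃ g, ρ g x = y}, fun _ => Iff.rfl⟩
    have hsub : O ⊆ (fun k : ℤ => (ψ ^ k) x) '' Set.Icc (-(V : ℤ)) V := by
      intro y hy
      obtain ⟨g, rfl⟩ := (hO y).1 hy
      obtain ⟨k, hk, hk'⟩ := short x g
      rw [← hV] at hk
      exact ⟨k, abs_le.1 hk, hk'.symm⟩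
    have hfin : O.Finite := ((Set.finite_Icc _ _).image _).subset hsub
    haveI := hfin.fintype
    obtain ⟨ι⟩ : Nonempty (O ↪ Fin (2 * V + 1)) := by
      refine Function.Embedding.nonempty_of_card_le ?_
      rw [Fintype.card_fin, ← Nat.card_eq_fintype_card, Nat.card_coe_set_eq]
      refine (Set.ncard_le_ncard hsub ((Set.finite_Icc _ _).image _)).trans ?_
      refine (Set.ncard_image_le (Set.finite_Icc _ _)).trans ?_
      rw [← Finset.coe_Icc, Set.ncard_coe_finset, Int.card_Icc]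
      omega
    have mem : ∀ g y, ρ g y ∈ O ↔ y ∈ O := by
      intro g y
      constructor
      · intro hy
        obtain ⟨g', hg'⟩ := (hO _).1 hy
        exact (hO _).2 ⟨g⁻¹ * g', by rw [map_mul, Perm.mul_apply, hg',
          ← Perm.mul_apply, ← map_mul, inv_mul_cancel, map_one, Perm.one_apply]⟩
      · intro hy
        obtain ⟨g', hg'⟩ := (hO _).1 hy
        exact (hO _).2 ⟨g * g', by rw [map_mul, Perm.mul_apply, hg']⟩
    obtain ⟨σ, hσ⟩ : ∃ σ : G →* Perm O, ∀ g y, (σ g y : X) = ρ g y :=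
      ⟨MonoidHom.mk' (fun g => (ρ g).subtypePerm (mem g)) (fun g g' => by
        ext y; simp only [map_mul]; rfl), fun g y => rfl⟩
    have h1 := congrFun h ((Perm.viaEmbeddingHom ι).comp σ)
    rw [hΦ, hΦ, MonoidHom.comp_apply, MonoidHom.comp_apply] at h1
    have h2 := Perm.viaEmbeddingHom_injective ι h1
    have hx : x ∈ O := (hO x).2 ⟨1, by simp⟩
    rw [← hσ g ⟨x, hx⟩, ← hσ g' ⟨x, hx⟩, h2]
  refine Set.finite_coe_iff.1 (Finite.of_injective (fun r : Set.range ρ => Φ r.2.choose) ?_)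
  intro r r' h
  apply Subtype.ext
  rw [← r.2.choose_spec, ← r'.2.choose_spec]
  exact key _ _ h

end Vale.Agent.P192
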